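import Vale.Agent.P181.DGx.H248.Low

set_option autoImplicit false

/-!
# P181, DU (U3c): no column lost

The symmetrizations of the elements of `PKT` of all contents are independent and killed by the
part of `∑ j, ∂/∂x (i, j)` which acts on the columns of degree less than `S`.
-/

open MvPolynomial

namespace Vale.Agent.P181.DU.H248

open Vale.Agent.P181.T4 (HW finiteDimensional_HW)
open Vale.Agent.P181.SZR2 (map_get)
open Vale.Agent.P181.DG (PKT NT KT)
open Vale.Agent.P181.DGx.H248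

/-- The symmetric highest weight polynomials with column degrees at most `a`. -/
noncomputable def MD (m b a : ℕ) (mu : Fin m → ℕ) : Submodule ℂ (MvPolynomial (Fin m × Fin b) ℂ) where
  carrier := {f | f ∈ HW m (Fin b) mu ∧
    (∀ e : Equiv.Perm (Fin b), rename (fun p : Fin m × Fin b => (p.1, e p.2)) f = f) ∧
    ∀ v, coeff v f ≠ 0 → ∀ j, ∑ i, v (i, j) ≤ a}
  zero_mem' := ⟨zero_mem _, fun _ => map_zero _, fun v hv => absurd (coeff_zero v) hv⟩
  add_mem' := by
    rintro f g ⟨hf1, hf2, hf3⟩ ⟨hg1, hg2, hg3⟩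
    refine ⟨add_mem hf1 hg1, fun e => by rw [map_add, hf2 e, hg2 e], fun v hv j => ?_⟩
    rw [coeff_add] at hv
    by_cases h : coeff v f = 0
    · rw [h, zero_add] at hv
      exact hg3 v hv j
    · exact hf3 v h j
  smul_mem' := by
    rintro c f ⟨hf1, hf2, hf3⟩
    refine ⟨Submodule.smul_mem _ c hf1, fun e => by rw [map_smul, hf2 e], fun v hv j => ?_⟩
    rw [coeff_smul, smul_eq_mul] at hv
    exact hf3 v (right_ne_zero_of_mul hv) j

lemma mem_MD {m b a : ℕ} {mu : Fin m → ℕ} {f : MvPolynomial (Fin m × Fin b) ℂ} :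
    f ∈ MD m b a mu ↔ f ∈ HW m (Fin b) mu ∧
      (∀ e : Equiv.Perm (Fin b), rename (fun p : Fin m × Fin b => (p.1, e p.2)) f = f) ∧
      ∀ v, coeff v f ≠ 0 → ∀ j, ∑ i, v (i, j) ≤ a := Iff.rfl

instance finiteDimensional_MD (m b a : ℕ) (mu : Fin m → ℕ) :
    FiniteDimensional ℂ (MD m b a mu) :=
  Submodule.finiteDimensional_of_le (S₂ := HW m (Fin b) mu) fun _ h => h.1

/-- The substitution along an equivalence is a renaming. -/
lemma sb_equiv {m : ℕ} {κ κ' : Type} [Fintype κ'] [DecidableEq κ] (σ : κ' ≃ κ)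
    (f : MvPolynomial (Fin m × κ) ℂ) :
    sb m σ (fun _ => 1) f = rename (fun p : Fin m × κ => (p.1, σ.symm p.2)) f := by
  classical
  have h : sb m σ (fun _ => 1) = rename (R := ℂ) (fun p : Fin m × κ => (p.1, σ.symm p.2)) := by
    apply MvPolynomial.algHom_ext
    intro p
    rw [sb_X, rename_X, Finset.sum_eq_single (σ.symm p.2)]
    · rw [Equiv.apply_symm_apply, if_pos rfl, C_1, one_mul]
    · intro c _ hc
      rw [if_neg]
      intro h'
      exact hc (by rw [← h', Equiv.symm_apply_apply])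
    · intro h'
      exact absurd (Finset.mem_univ _) h'
  rw [h]

/-- The exponents after the bijection `σ` of the columns. -/
noncomputable def tr {m : ℕ} {κ κ' : Type} (σ : κ' ≃ κ) (v : Fin m × κ' →₀ ℕ) :
    Fin m × κ →₀ ℕ :=
  v.mapDomain (fun p => (p.1, σ p.2))

lemma pr_inj {m : ℕ} {κ κ' : Type} (σ : κ' ≃ κ) :
    Function.Injective (fun p : Fin m × κ' => (p.1, σ p.2)) := by
  intro p q h
  have h1 := congrArg Prod.fst h
  have h2 := congrArg Prod.snd h
  exact Prod.ext h1 (σ.injective h2)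

lemma tr_apply {m : ℕ} {κ κ' : Type} (σ : κ' ≃ κ) (v : Fin m × κ' →₀ ℕ) (i : Fin m) (k : κ) :
    tr σ v (i, k) = v (i, σ.symm k) := by
  have h := Finsupp.mapDomain_apply (pr_inj (m := m) σ) v (i, σ.symm k)
  rw [← h, tr]
  congr 1
  rw [Equiv.apply_symm_apply]

lemma coeff_sb_equiv {m : ℕ} {κ κ' : Type} [Fintype κ'] [DecidableEq κ] (σ : κ' ≃ κ)
    (f : MvPolynomial (Fin m × κ) ℂ) (v : Fin m × κ' →₀ ℕ) :
    coeff v (sb m σ (fun _ => 1) f) = coeff (tr σ v) f := by
  have h : v = (tr σ v).mapDomain (fun p => (p.1, σ.symm p.2)) := by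
    ext ⟨i, c⟩
    have h1 := tr_apply σ.symm (tr σ v) i c
    rw [tr, tr_apply, Equiv.symm_symm, Equiv.symm_apply_apply] at h1
    exact h1.symm
  rw [sb_equiv]
  conv_lhs => rw [h]
  exact coeff_rename_mapDomain _ (pr_inj σ.symm) f (tr σ v)

lemma tr_add_single {m : ℕ} {κ κ' : Type} (σ : κ' ≃ κ) (v : Fin m × κ' →₀ ℕ) (i : Fin m)
    (c : κ') : tr σ (v + Finsupp.single (i, c) 1) = tr σ v + Finsupp.single (i, σ c) 1 := by
  rw [tr, Finsupp.mapDomain_add, Finsupp.mapDomain_single]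
  rfl

/-- The symmetrization. -/
noncomputable def Ps (m b l t : ℕ) :
    MvPolynomial (Fin m × (Fin l ⊕ Fin t)) ℂ →ₗ[ℂ] MvPolynomial (Fin m × Fin b) ℂ :=
  ∑ σ : Fin b ≃ Fin l ⊕ Fin t, (sb m σ (fun _ => 1)).toLinearMap

lemma Ps_apply (m b l t : ℕ) (f : MvPolynomial (Fin m × (Fin l ⊕ Fin t)) ℂ) :
    Ps m b l t f = ∑ σ : Fin b ≃ Fin l ⊕ Fin t, sb m σ (fun _ => 1) f := by
  rw [Ps, LinearMap.sum_apply]
  rfl

theorem Ps_mem_MD {m S a b l t : ℕ} {d : Fin l → ℕ} {mu : Fin m → ℕ} (hSa : S ≤ a + 1)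
    (hd : ∀ j, d j ≤ a) {f : MvPolynomial (Fin m × (Fin l ⊕ Fin t)) ℂ}
    (hf : f ∈ PKT m S (Fin l) d t mu) : Ps m b l t f ∈ MD m b a mu := by
  classical
  rw [Ps_apply]
  refine ⟨Submodule.sum_mem _ fun σ _ => sb_mem_HW _ _ hf.1, fun e => ?_, fun v hv c => ?_⟩
  · rw [map_sum]
    conv_rhs => rw [← Equiv.sum_comp (Equiv.equivCongr e (Equiv.refl (Fin l ⊕ Fin t)))]
    refine Finset.sum_congr rfl fun σ _ => ?_
    rw [rename_sb]
    rfl
  · rw [coeff_sum] at hv
    obtain ⟨σ, _, hσ⟩ := Finset.exists_ne_zero_of_sum_ne_zero hv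
    rw [coeff_sb_equiv] at hσ
    have h4 := hf.2.1 _ hσ
    have h3 : ∑ i, v (i, c) = ∑ i, tr σ v (i, σ c) := by
      refine Finset.sum_congr rfl fun i _ => ?_
      rw [tr_apply, Equiv.symm_apply_apply]
    rw [h3]
    rcases h5 : σ c with j | j
    · exact (h4.1 j).le.trans (hd j)
    · have := h4.2 j
      omega

/-- The restricted derivatives kill the symmetrization. -/
theorem Ps_d0 {m S b l t : ℕ} {d : Fin l → ℕ} {mu : Fin m → ℕ} (hdS : ∀ j, S ≤ d j)
    {f : MvPolynomial (Fin m × (Fin l ⊕ Fin t)) ℂ} (hf : f ∈ PKT m S (Fin l) d t mu)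
    (i : Fin m) (u : Fin m × Fin b →₀ ℕ) :
    ∑ c, (if ∑ a, u (a, c) + 1 < S then coeff (u + Finsupp.single (i, c) 1) (Ps m b l t f) *
      ((u (i, c) : ℂ) + 1) else 0) = 0 := by
  classical
  have h1 : ∀ σ : Fin b ≃ Fin l ⊕ Fin t, ∑ c, (if ∑ a, u (a, c) + 1 < S then
      coeff (u + Finsupp.single (i, c) 1) (sb m σ (fun _ => 1) f) * ((u (i, c) : ℂ) + 1)
        else 0) = 0 := by
    intro σ
    have h2 : ∀ c, (if ∑ a, u (a, c) + 1 < S then
        coeff (u + Finsupp.single (i, c) 1) (sb m σ (fun _ => 1) f) * ((u (i, c) : ℂ) + 1)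
          else 0) = (fun k => if ∑ a, tr σ u (a, k) + 1 < S then
        coeff (tr σ u + Finsupp.single (i, k) 1) f * ((tr σ u (i, k) : ℂ) + 1) else 0) (σ c) := by
      intro c
      beta_reduce
      rw [coeff_sb_equiv, tr_add_single]
      have h3 : ∀ a, tr σ u (a, σ c) = u (a, c) := fun a => by
        rw [tr_apply, Equiv.symm_apply_apply]
      simp only [h3]
    rw [Finset.sum_congr rfl fun c _ => h2 c, Equiv.sum_comp σ (fun k =>
      if ∑ a, tr σ u (a, k) + 1 < S then
        coeff (tr σ u + Finsupp.single (i, k) 1) f * ((tr σ u (i, k) : ℂ) + 1) else 0),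
      Fintype.sum_sum_type]
    have h4 : ∀ k, ∑ a, (tr σ u + Finsupp.single (i, k) 1 : Fin m × (Fin l ⊕ Fin t) →₀ ℕ) (a, k) =
        ∑ a, tr σ u (a, k) + 1 := by
      intro k
      have h5 : ∀ a, (tr σ u + Finsupp.single (i, k) 1 : Fin m × (Fin l ⊕ Fin t) →₀ ℕ) (a, k) =
          tr σ u (a, k) + if a = i then 1 else 0 := by
        intro a
        rw [Finsupp.add_apply]
        congr 1
        by_cases h : a = i
        · subst h
          rw [Finsupp.single_eq_same, if_pos rfl]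
        · rw [Finsupp.single_eq_of_ne, if_neg h]
          intro h'
          exact h (congrArg Prod.fst h')
      rw [Finset.sum_congr rfl fun a _ => h5 a, Finset.sum_add_distrib, Finset.sum_ite_eq']
      simp
    have h6 : ∀ j : Fin l, (if ∑ a, tr σ u (a, Sum.inl j) + 1 < S then
        coeff (tr σ u + Finsupp.single (i, Sum.inl j) 1) f * ((tr σ u (i, Sum.inl j) : ℂ) + 1)
          else 0) = 0 := by
      intro j
      split_ifs with h
      · have h7 : coeff (tr σ u + Finsupp.single (i, Sum.inl j) 1) f = 0 := by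
          by_contra h8
          have h9 := (hf.2.1 _ h8).1 j
          rw [h4] at h9
          have := hdS j
          omega
        rw [h7, zero_mul]
      · rfl
    have h10 : ∀ j : Fin t, (if ∑ a, tr σ u (a, Sum.inr j) + 1 < S then
        coeff (tr σ u + Finsupp.single (i, Sum.inr j) 1) f * ((tr σ u (i, Sum.inr j) : ℂ) + 1)
          else 0) = coeff (tr σ u) (pderiv (i, Sum.inr j) f) := by
      intro j
      rw [coeff_pderiv]
      split_ifs with h
      · rfl
      · have h7 : coeff (tr σ u + Finsupp.single (i, Sum.inr j) 1) f = 0 := by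
          by_contra h8
          have h9 := (hf.2.1 _ h8).2 j
          rw [h4] at h9
          exact h h9
        rw [h7, zero_mul]
    rw [Finset.sum_eq_zero fun j _ => h6 j, zero_add, Finset.sum_congr rfl fun j _ => h10 j,
      ← coeff_sum, hf.2.2.2 i, coeff_zero]
  have h2 : ∀ c, (if ∑ a, u (a, c) + 1 < S then
      coeff (u + Finsupp.single (i, c) 1) (Ps m b l t f) * ((u (i, c) : ℂ) + 1) else 0) =
      ∑ σ : Fin b ≃ Fin l ⊕ Fin t, (if ∑ a, u (a, c) + 1 < S then
        coeff (u + Finsupp.single (i, c) 1) (sb m σ (fun _ => 1) f) * ((u (i, c) : ℂ) + 1)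
          else 0) := by
    intro c
    split_ifs
    · rw [Ps_apply, coeff_sum, Finset.sum_mul]
    · rw [Finset.sum_const_zero]
  rw [Finset.sum_congr rfl fun c _ => h2 c, Finset.sum_comm]
  exact Finset.sum_eq_zero fun σ _ => h1 σ

/-- An equivalence of sums which respects the summands. -/
lemma split_equiv {α β α' β' : Type} (π : α ⊕ β ≃ α' ⊕ β')
    (h1 : ∀ a, ∃ a', π (Sum.inl a) = Sum.inl a') (h2 : ∀ b, ∃ b', π (Sum.inr b) = Sum.inr b') :
    ∃ (τ : α ≃ α') (ρ : β ≃ β'), ∀ x, π x = Sum.map τ ρ x := by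
  choose τ hτ using h1
  choose ρ hρ using h2
  refine ⟨Equiv.ofBijective τ ⟨fun a a' h => ?_, fun a' => ?_⟩,
    Equiv.ofBijective ρ ⟨fun b b' h => ?_, fun b' => ?_⟩, fun x => ?_⟩
  · have h3 := hτ a
    rw [h, ← hτ a'] at h3
    exact Sum.inl_injective (π.injective h3)
  · rcases h : π.symm (Sum.inl a') with a | b
    · refine ⟨a, ?_⟩
      rw [Equiv.symm_apply_eq, hτ] at h
      exact (Sum.inl_injective h).symm
    · rw [Equiv.symm_apply_eq, hρ] at h
      exact absurd h Sum.inl_ne_inr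
  · have h3 := hρ b
    rw [h, ← hρ b'] at h3
    exact Sum.inr_injective (π.injective h3)
  · rcases h : π.symm (Sum.inr b') with a | b
    · rw [Equiv.symm_apply_eq, hτ] at h
      exact absurd h Sum.inr_ne_inl
    · refine ⟨b, ?_⟩
      rw [Equiv.symm_apply_eq, hρ] at h
      exact (Sum.inr_injective h).symm
  · rcases x with a | b
    · exact hτ a
    · exact hρ b

/-- **Independence.** -/
theorem indep {m : ℕ} {ι : Type} [Fintype ι] {b S : ℕ} (l t : ι → ℕ)
    (hb : ∀ i, l i + t i = b) (d : ∀ i, Fin (l i) → ℕ) (hdS : ∀ i j, S ≤ d i j)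
    (hty : ∀ i i', Finset.univ.val.map (d i) = Finset.univ.val.map (d i') → i = i')
    (f : ∀ i, MvPolynomial (Fin m × (Fin (l i) ⊕ Fin (t i))) ℂ)
    (hdeg : ∀ i v, coeff v (f i) ≠ 0 → (∀ j, ∑ a, v (a, Sum.inl j) = d i j) ∧
      ∀ j, ∑ a, v (a, Sum.inr j) < S)
    (hsym : ∀ i (e : Equiv.Perm (Fin (l i))) (s : Equiv.Perm (Fin (t i))),
      (∀ j, d i (e j) = d i j) →
      rename (fun p : Fin m × (Fin (l i) ⊕ Fin (t i)) => (p.1, Sum.map e s p.2)) (f i) = f i)
    (h0 : ∑ i, Ps m b (l i) (t i) (f i) = 0) : ∀ i, f i = 0 := by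
  classical
  intro i0
  ext w
  rw [coeff_zero]
  by_contra hw
  obtain ⟨σ0⟩ : Nonempty (Fin b ≃ Fin (l i0) ⊕ Fin (t i0)) := by
    refine ⟨Fintype.equivOfCardEq ?_⟩
    rw [Fintype.card_sum, Fintype.card_fin, Fintype.card_fin, Fintype.card_fin]
    exact (hb i0).symm
  -- the exponent of the test
  let v : Fin m × Fin b →₀ ℕ := tr σ0.symm w
  have hcol : ∀ (i : ι) (σ : Fin b ≃ Fin (l i) ⊕ Fin (t i)) (a : Fin m) (k),
      tr σ v (a, k) = w (a, σ0 (σ.symm k)) := by
    intro i σ a k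
    change tr σ (tr σ0.symm w) (a, k) = _
    rw [tr_apply, tr_apply, Equiv.symm_symm]
  have hgood : ∀ (i : ι) (σ : Fin b ≃ Fin (l i) ⊕ Fin (t i)), coeff (tr σ v) (f i) ≠ 0 →
      ∃ (τ : Fin (l i) ≃ Fin (l i0)) (ρ : Fin (t i) ≃ Fin (t i0)),
        (∀ x, σ0 (σ.symm x) = Sum.map τ ρ x) ∧ ∀ j, d i0 (τ j) = d i j := by
    intro i σ hσ
    have h1 := hdeg i _ hσ
    have h2 := hdeg i0 w hw
    have e1 : ∀ j, ∃ j', (σ.symm.trans σ0) (Sum.inl j) = Sum.inl j' := by
      intro j
      rcases h : (σ.symm.trans σ0) (Sum.inl j) with j' | j'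
      · exact ⟨j', rfl⟩
      · exfalso
        have h3 := h1.1 j
        rw [Finset.sum_congr rfl fun a _ => hcol i σ a (Sum.inl j)] at h3
        rw [Equiv.trans_apply] at h
        rw [h] at h3
        have h4 := h2.2 j'
        have := hdS i j
        omega
    have e2 : ∀ j, ∃ j', (σ.symm.trans σ0) (Sum.inr j) = Sum.inr j' := by
      intro j
      rcases h : (σ.symm.trans σ0) (Sum.inr j) with j' | j'
      · exfalso
        have h3 := h1.2 j
        rw [Finset.sum_congr rfl fun a _ => hcol i σ a (Sum.inr j)] at h3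
        rw [Equiv.trans_apply] at h
        rw [h, h2.1 j'] at h3
        have := hdS i0 j'
        omega
      · exact ⟨j', rfl⟩
    obtain ⟨τ, ρ, h3⟩ := split_equiv (σ.symm.trans σ0) e1 e2
    refine ⟨τ, ρ, h3, fun j => ?_⟩
    have h4 := h1.1 j
    rw [Finset.sum_congr rfl fun a _ => hcol i σ a (Sum.inl j)] at h4
    have h5 : σ0 (σ.symm (Sum.inl j)) = Sum.inl (τ j) := h3 (Sum.inl j)
    rw [h5, h2.1] at h4
    exact h4
  have h1 := congrArg (coeff v) h0
  rw [coeff_sum, coeff_zero, Finset.sum_eq_single i0] at h1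
  · rw [Ps_apply, coeff_sum] at h1
    have h2 : ∀ σ : Fin b ≃ Fin (l i0) ⊕ Fin (t i0), coeff v (sb m σ (fun _ => 1) (f i0)) =
        if coeff (tr σ v) (f i0) = 0 then 0 else coeff w (f i0) := by
      intro σ
      rw [coeff_sb_equiv]
      split_ifs with h
      · exact h
      · obtain ⟨τ, ρ, h3, h4⟩ := hgood i0 σ h
        have h5 := hsym i0 τ ρ h4
        have h6 : w = (tr σ v).mapDomain
            (fun p : Fin m × (Fin (l i0) ⊕ Fin (t i0)) => (p.1, Sum.map τ ρ p.2)) := by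
          have h7 : (fun p : Fin m × (Fin (l i0) ⊕ Fin (t i0)) => (p.1, Sum.map τ ρ p.2)) =
              fun p => (p.1, (σ.symm.trans σ0) p.2) := by
            funext p
            rw [Equiv.trans_apply, h3]
          rw [h7]
          ext ⟨a, k⟩
          have h8 := tr_apply (σ.symm.trans σ0) (tr σ v) a k
          rw [hcol] at h8
          rw [tr] at h8
          rw [h8]
          simp
        conv_rhs => rw [← h5, h6]
        refine (coeff_rename_mapDomain _ ?_ (f i0) (tr σ v)).symm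
        intro p q hpq
        have h8 := congrArg Prod.fst hpq
        have h9 : Sum.map τ ρ p.2 = Sum.map τ ρ q.2 := congrArg Prod.snd hpq
        exact Prod.ext h8 ((Equiv.sumCongr τ ρ).injective h9)
    rw [Finset.sum_congr rfl fun σ _ => h2 σ, Finset.sum_ite, Finset.sum_const_zero, zero_add,
      Finset.sum_const, nsmul_eq_mul] at h1
    refine (mul_ne_zero ?_ hw) h1
    rw [Nat.cast_ne_zero, ← Nat.pos_iff_ne_zero, Finset.card_pos]
    refine ⟨σ0, Finset.mem_filter.2 ⟨Finset.mem_univ _, ?_⟩⟩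
    have h3 : tr σ0 v = w := by
      ext ⟨a, k⟩
      rw [hcol, Equiv.apply_symm_apply]
    rw [h3]
    exact hw
  · intro i _ hi
    rw [Ps_apply, coeff_sum]
    refine Finset.sum_eq_zero fun σ _ => ?_
    rw [coeff_sb_equiv]
    by_contra hσ
    obtain ⟨τ, ρ, _, h4⟩ := hgood i σ hσ
    apply hi
    apply hty
    have h7 : d i = d i0 ∘ τ := funext fun j => (h4 j).symm
    rw [h7, ← Multiset.map_map]
    congr 1
    have h9 := Finset.map_univ_equiv τ
    have h10 := congrArg Finset.val h9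
    rw [Finset.map_val] at h10
    exact h10
  · intro h'
    exact absurd (Finset.mem_univ _) h'

end Vale.Agent.P181.DU.H248
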