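import Vale.Agent.P181.DU.H248.C

set_option autoImplicit false

/-!
# P181, DU (U3c): the sum over the contents
-/

open MvPolynomial

namespace Vale.Agent.P181.DU.H248

open Vale.Agent.P181.SZR2 (map_get)
open Vale.Agent.P181.DG (PKT NT KT)
open Vale.Agent.P181.DGx.H248

open scoped Classical in
/-- **(U3c)** for any space `K0` which contains the elements of `MD` killed by the restricted
derivatives. -/
theorem sum_le (a b m S : ℕ) (mu : Fin m → ℕ) (hSa : S ≤ a + 1)
    (K0 : Submodule ℂ (MvPolynomial (Fin m × Fin b) ℂ)) [FiniteDimensional ℂ K0]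
    (hK : ∀ F ∈ MD m b a mu, (∀ (i : Fin m) (u : Fin m × Fin b →₀ ℕ),
      ∑ c, (if ∑ a, u (a, c) + 1 < S then coeff (u + Finsupp.single (i, c) 1) F *
        ((u (i, c) : ℂ) + 1) else 0) = 0) → F ∈ K0) :
    ∑ kap ∈ (KT (∑ i, mu i) S).filter (fun k => Multiset.card k ≤ b ∧ ∀ x ∈ k, x ≤ a),
      NT m S mu kap (b - Multiset.card kap) ≤ Module.finrank ℂ K0 := by
  generalize hT : (KT (∑ i, mu i) S).filter
    (fun k => Multiset.card k ≤ b ∧ ∀ x ∈ k, x ≤ a) = T
  have hmem : ∀ k ∈ T, (∀ x ∈ k, S ≤ x) ∧ Multiset.card k ≤ b ∧ ∀ x ∈ k, x ≤ a := by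
    intro k hk
    rw [← hT] at hk
    have h3 := Finset.mem_filter.1 hk
    refine ⟨?_, h3.2⟩
    obtain ⟨u, _, hu⟩ := Finset.mem_biUnion.1 h3.1
    exact (Finset.mem_filter.1 hu).2
  have hget : ∀ (k : Multiset ℕ) (j : Fin k.toList.length), k.toList.get j ∈ k :=
    fun k j => Multiset.mem_toList.1 (List.get_mem _ _)
  have hPs : ∀ (i : {k // k ∈ T}), ∀ f ∈ PKT m S (Fin i.1.toList.length)
      (fun j => i.1.toList.get j) (b - Multiset.card i.1) mu,
      Ps m b i.1.toList.length (b - Multiset.card i.1) f ∈ K0 := by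
    intro i f hf
    exact hK _ (Ps_mem_MD hSa (fun j => (hmem i.1 i.2).2.2 _ (hget _ j)) hf)
      (Ps_d0 (fun j => (hmem i.1 i.2).1 _ (hget _ j)) hf)
  let W := ∀ i : {k // k ∈ T}, PKT m S (Fin i.1.toList.length) (fun j => i.1.toList.get j)
    (b - Multiset.card i.1) mu
  let L : W →ₗ[ℂ] K0 := ∑ i : {k // k ∈ T},
    (((Ps m b i.1.toList.length (b - Multiset.card i.1)).restrict
      (p := PKT m S (Fin i.1.toList.length) (fun j => i.1.toList.get j)
        (b - Multiset.card i.1) mu) (q := K0) (hPs i))) ∘ₗ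
      LinearMap.proj i
  have hL : ∀ x : W, ((L x : K0) : MvPolynomial (Fin m × Fin b) ℂ) =
      ∑ i : {k // k ∈ T}, Ps m b i.1.toList.length (b - Multiset.card i.1)
        (x i : MvPolynomial _ ℂ) := by
    intro x
    rw [LinearMap.sum_apply, Submodule.coe_sum]
    rfl
  have hinj : Function.Injective L := by
    rw [← LinearMap.ker_eq_bot, LinearMap.ker_eq_bot']
    intro x hx
    have h1 := hL x
    rw [hx, Submodule.coe_zero] at h1
    have h2 := indep (S := S) (b := b) (fun i : {k // k ∈ T} => i.1.toList.length)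
      (fun i => b - Multiset.card i.1) (fun i => by
        have := (hmem i.1 i.2).2.1
        rw [Multiset.length_toList]
        omega) (fun i j => i.1.toList.get j)
      (fun i j => (hmem i.1 i.2).1 _ (hget _ j))
      (fun i i' h => by
        have h3 := map_get i.1
        have h4 := map_get i'.1
        exact Subtype.ext (h3.symm.trans (h.trans h4)))
      (fun i => (x i : MvPolynomial _ ℂ)) (fun i v hv => (x i).2.2.1 v hv)
      (fun i e s he => (x i).2.2.2.1 e s he) h1.symm
    funext i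
    exact Subtype.ext (h2 i)
  have hfr : Module.finrank ℂ W = ∑ i : {k // k ∈ T}, NT m S mu i.1 (b - Multiset.card i.1) := by
    rw [Module.finrank_pi_fintype]
    rfl
  have h5 := LinearMap.finrank_le_finrank_of_injective hinj
  rw [hfr] at h5
  refine le_trans (le_of_eq ?_) h5
  exact (Finset.sum_coe_sort T (fun k => NT m S mu k (b - Multiset.card k))).symm

end Vale.Agent.P181.DU.H248
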