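import Vale.Agent.P181.DU.H248.Sum
import Vale.Agent.P181.DU.H235.Ops

set_option autoImplicit false

/-!
# P181, DU (U3c), in the letters of `DU/H235/Ops`
-/

open MvPolynomial

namespace Vale.Agent.P181.DU.H248

open Vale.Agent.P181.DG (NT KT)
open Vale.Agent.P181.DU.H235

open scoped Classical in
/-- **(U3c)** the lossless lower bound for the kernel of the restricted derivatives. -/
theorem lowC (a b m S : ℕ) (mu : Fin m → ℕ) (hS : 1 ≤ S) (hSa : S ≤ a + 1) :
    ∑ kap ∈ (KT (∑ i, mu i) S).filter (fun k => Multiset.card k ≤ b ∧ ∀ x ∈ k, x ≤ a),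
      NT m S mu kap (b - Multiset.card kap) ≤
        Module.finrank ℂ ↥(MD m b a mu ⊓ ⨅ i, LinearMap.ker (D0 (m := m) (b := b) (S - 1) i)) := by
  have : FiniteDimensional ℂ
      ↥(MD m b a mu ⊓ ⨅ i, LinearMap.ker (D0 (m := m) (b := b) (S - 1) i)) :=
    Submodule.finiteDimensional_of_le (S₂ := MD m b a mu) inf_le_left
  refine sum_le a b m S mu hSa _ fun F hF h => ?_
  refine Submodule.mem_inf.2 ⟨hF, ?_⟩
  rw [Submodule.mem_iInf]
  intro i
  rw [LinearMap.mem_ker]
  ext u
  rw [coeff_D0, coeff_zero]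
  refine Eq.trans (Finset.sum_congr rfl fun c _ => ?_) (h i u)
  have h1 : (∑ a, u (a, c) < S - 1) ↔ (∑ a, u (a, c) + 1 < S) := by omega
  simp only [h1]

end Vale.Agent.P181.DU.H248
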